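import Vale.Agent.P082.Iface
import Vale.Agent.P082.Witness

/-!
# P082: the witness statement
-/

namespace Vale.Agent.P082.Wit

open scoped InnerProductSpace
open Finset

universe u

variable {H : Type u} [NormedAddCommGroup H] [InnerProductSpace ℂ H] [CompleteSpace H]
variable {M : VonNeumannAlgebra H} {ξ : H}

theorem inner_ev_ev (a b : Alg M) : ⟪ev ξ a, ev ξ b⟫_ℂ = tr ξ (star a * b) := by
  rw [tr, ev, ev, ev]
  show _ = ⟪ξ, (star (a : H →L[ℂ] H)) ((b : H →L[ℂ] H) ξ)⟫_ℂ
  rw [ContinuousLinearMap.star_eq_adjoint, ContinuousLinearMap.adjoint_inner_right]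

theorem inner_star_star (hξ : IsTrVec M ξ) (a b : Alg M) :
    ⟪ev ξ (star a), ev ξ (star b)⟫_ℂ = ⟪ev ξ b, ev ξ a⟫_ℂ := by
  have key : ∀ b : Alg M, (⟪ev ξ (star a), ev ξ (star b)⟫_ℂ).re = (⟪ev ξ a, ev ξ b⟫_ℂ).re := by
    intro b
    have h := congrArg (· ^ 2) (hξ.star_norm (a + b))
    simp only [star_add, ev] at h
    simp only [ev, StarMemClass.coe_star]
    have ha := congrArg (· ^ 2) (hξ.star_norm a)
    have hb := congrArg (· ^ 2) (hξ.star_norm b)
    simp only [ev, StarMemClass.coe_star] at ha hb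
    simp only [AddMemClass.coe_add, add_apply, StarMemClass.coe_star, @norm_add_sq ℂ,
      RCLike.re_to_complex] at h
    linarith
  rw [← inner_conj_symm (ev ξ b) (ev ξ a)]
  refine Complex.ext (by rw [key b, Complex.conj_re]) ?_
  have h := key (Complex.I • b)
  simp only [star_smul, Complex.star_def, Complex.conj_I, ev, SetLike.val_smul,
    smul_apply, inner_smul_right, Complex.mul_re, Complex.neg_re, Complex.neg_im,
    Complex.I_re, Complex.I_im] at h
  simp only [ev, Complex.conj_im]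
  linarith

theorem tr_mul_comm (hξ : IsTrVec M ξ) (a b : Alg M) : tr ξ (a * b) = tr ξ (b * a) := by
  have h1 := inner_ev_ev (ξ := ξ) (star a) b
  have h2 := inner_ev_ev (ξ := ξ) (star b) a
  rw [star_star] at h1 h2
  rw [← h1, ← h2]
  conv_lhs => rw [← star_star b, inner_star_star hξ]

theorem inner_ev_mul (hξ : IsTrVec M ξ) (w w' v : Alg M) :
    ⟪ev ξ w, (v : H →L[ℂ] H) (ev ξ w')⟫_ℂ = tr ξ (v * (w' * star w)) := by
  rw [show (v : H →L[ℂ] H) (ev ξ w') = ev ξ (v * w') from rfl, inner_ev_ev, tr_mul_comm hξ,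
    mul_assoc]

theorem norm_ev_unitary {u : Alg M} (hu : u ∈ unitary (Alg M)) : ‖ev ξ u‖ = ‖ξ‖ := by
  have h : (u : H →L[ℂ] H) ∈ unitary (H →L[ℂ] H) := by
    rw [Unitary.mem_iff] at hu ⊢
    exact ⟨congrArg Subtype.val hu.1, congrArg Subtype.val hu.2⟩
  exact Unitary.norm_map (⟨_, h⟩ : unitary (H →L[ℂ] H)) ξ

/-- The witness of one unitary. -/
theorem stmtWit : Iface.StmtWit.{u} := by
  intro H _ _ _ M ξ C G U η J hξ hG hU hJ
  have hC : 0 ≤ C := by
    have h1 : (0 : ℝ) < ‖(1 : Alg M)‖ := by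
      refine norm_pos_iff.2 fun h => ?_
      have h2 : ev ξ (1 : Alg M) = ξ := rfl
      rw [h, ev, show ((0 : Alg M) : H →L[ℂ] H) = 0 from rfl, zero_apply] at h2
      have h3 := hξ.norm
      rw [← h2, norm_zero] at h3
      exact zero_ne_one h3
    exact nonneg_of_mul_nonneg_left ((norm_nonneg _).trans (hG 1)) h1
  let A : Alg M →ₗ[ℂ] (H →L[ℂ] H) :=
    { toFun := fun a => ((η * G a : Alg M) : H →L[ℂ] H)
      map_add' := fun a b => by simp [mul_add]
      map_smul' := fun c a => by simp }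
  have hA : ∀ a, ‖A a‖ ≤ ‖η‖ * C * ‖a‖ := fun a => by
    refine (norm_mul_le η (G a)).trans ?_
    rw [mul_assoc]
    exact mul_le_mul_of_nonneg_left (hG a) (norm_nonneg _)
  have hUs := Unitary.star_mem hU
  have hcancel : ∀ k, star U ^ k * U ^ k = 1 := fun k => by
    rw [← star_pow]; exact Unitary.star_mul_self_of_mem (pow_mem hU k)
  have h := norm_moment_sum_le hU A (mul_nonneg (norm_nonneg η) hC) hA hJ ξ
    (fun k => ev ξ (star U ^ k)) (fun k => norm_ev_unitary (pow_mem hUs k))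
    (Tp := fun j => tr ξ (G (U ^ j) * star (U ^ j) * η))
    (Tm := fun j => tr ξ (G (star U ^ j) * U ^ j * η)) ?_ ?_
  · rw [hξ.norm, one_pow, mul_one] at h
    rw [← Finset.Ico_add_one_right_eq_Icc, sum_Ico_eq_sum_range, Nat.add_sub_cancel]
    refine (le_of_eq ?_).trans (h.trans ?_)
    · congr 1
      refine sum_congr rfl fun j _ => ?_
      rw [add_comm 1 j, hcoef]
      push_cast
      ring
    · nlinarith [mul_nonneg (mul_nonneg Real.pi_pos.le hC) (norm_nonneg η)]
  · intro j k _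
    show ⟪ev ξ _, ((η * G (U ^ j) : Alg M) : H →L[ℂ] H) (ev ξ _)⟫_ℂ = _
    rw [inner_ev_mul hξ, star_pow, star_star, add_comm k, pow_add, mul_assoc (star U ^ j),
      hcancel, mul_one, star_pow, mul_assoc η, tr_mul_comm hξ]
  · intro j k _
    show ⟪ev ξ _, ((η * G (star U ^ j) : Alg M) : H →L[ℂ] H) (ev ξ _)⟫_ℂ = _
    rw [inner_ev_mul hξ, star_pow, star_star, pow_add, ← mul_assoc (star U ^ k), hcancel, one_mul,
      mul_assoc η, tr_mul_comm hξ]

end Vale.Agent.P082.Wit
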